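/-
Row 210 (S0432), layer P3: elementary metric facts on
`Ψ = w_{x0} + w_{x1} + w_y`, `k = (l² + r²/2 - Ψ)_+`, `η = (L r + F - F y) k`.
-/
import Claimed.Agent.R210.Defs

set_option autoImplicit false

open Claims.C0366 Claims.C0366.WeakHessian
open Set Filter MeasureTheory
open scoped ENNReal NNReal Topology

namespace Claimed.Agent.R210.P3.Geom

open Claimed.Agent.R210.Defs

noncomputable section

variable {X : Type*} [MetricSpace X]

/-- `Ψ = w_{x0} + w_{x1} + w_y` (bracketed as `(w_{x0} + w_{x1}) + w_y`). -/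
def p3_Psi (x0 x1 y : X) (z : X) : ℝ := (wfun x0 z + wfun x1 z) + wfun y z

/-- `k = (l² + r²/2 - Ψ)_+` -/
def p3_k (x0 x1 y : X) (l r : ℝ) (z : X) : ℝ := max ((l ^ 2 + r ^ 2 / 2) - p3_Psi x0 x1 y z) 0

/-- `η = ((o - F y) + F) k` -/
def p3_eta (F : X → ℝ) (x0 x1 y : X) (l r o : ℝ) (z : X) : ℝ :=
  ((o - F y) + F z) * p3_k x0 x1 y l r z

theorem p3_Psi_ge {x0 x1 y : X} {l : ℝ} (h01 : dist x0 x1 = 2 * l) (z : X) :
    l ^ 2 + dist z y ^ 2 / 2 ≤ p3_Psi x0 x1 y z := by
  have h : 2 * l ≤ dist z x0 + dist z x1 := by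
    rw [← h01]
    calc dist x0 x1 ≤ dist x0 z + dist z x1 := dist_triangle _ _ _
      _ = dist z x0 + dist z x1 := by rw [dist_comm x0 z]
  unfold p3_Psi wfun
  have h0 : 0 ≤ dist z x0 := dist_nonneg
  have h1 : 0 ≤ dist z x1 := dist_nonneg
  rcases le_total 0 l with hl | hl
  · nlinarith [sq_nonneg (dist z x0 - dist z x1), mul_self_le_mul_self (by linarith : (0:ℝ) ≤ 2 * l) h]
  · have : l = 0 := by
      have : 0 ≤ 2 * l := h01 ▸ dist_nonneg
      linarith
    subst this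
    nlinarith [sq_nonneg (dist z x0), sq_nonneg (dist z x1)]

theorem p3_Psi_self {x0 x1 y : X} {l : ℝ} (h0 : dist x0 y = l) (h1 : dist x1 y = l) :
    p3_Psi x0 x1 y y = l ^ 2 := by
  unfold p3_Psi wfun
  rw [dist_comm y x0, dist_comm y x1, h0, h1, dist_self]
  ring

theorem p3_k_nonneg (x0 x1 y : X) (l r : ℝ) (z : X) : 0 ≤ p3_k x0 x1 y l r z := le_max_right _ _

theorem p3_k_self {x0 x1 y : X} {l r : ℝ} (h0 : dist x0 y = l) (h1 : dist x1 y = l) :
    p3_k x0 x1 y l r y = r ^ 2 / 2 := by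
  unfold p3_k
  rw [p3_Psi_self h0 h1]
  have : l ^ 2 + r ^ 2 / 2 - l ^ 2 = r ^ 2 / 2 := by ring
  rw [this]
  exact max_eq_left (by positivity)

theorem p3_k_le {x0 x1 y : X} {l : ℝ} (h01 : dist x0 x1 = 2 * l) (r : ℝ) (z : X) :
    p3_k x0 x1 y l r z ≤ r ^ 2 / 2 := by
  unfold p3_k
  have := p3_Psi_ge (y := y) h01 z
  apply max_le
  · nlinarith [sq_nonneg (dist z y)]
  · positivity

/-- `k ≠ 0` only inside the ball of radius `r`. -/
theorem p3_dist_lt_of_k_ne {x0 x1 y : X} {l r : ℝ} (h01 : dist x0 x1 = 2 * l) (hr : 0 < r) {z : X}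
    (hz : p3_k x0 x1 y l r z ≠ 0) : dist z y < r := by
  by_contra hcon
  rw [not_lt] at hcon
  apply hz
  unfold p3_k
  apply max_eq_right
  have := p3_Psi_ge (y := y) h01 z
  nlinarith [mul_self_le_mul_self hr.le hcon]

theorem p3_continuous_wfun (x : X) : Continuous (wfun x) := by
  unfold wfun
  fun_prop

theorem p3_continuous_Psi (x0 x1 y : X) : Continuous (p3_Psi x0 x1 y) := by
  unfold p3_Psi
  exact ((p3_continuous_wfun x0).add (p3_continuous_wfun x1)).add (p3_continuous_wfun y)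

theorem p3_continuous_k (x0 x1 y : X) (l r : ℝ) : Continuous (p3_k x0 x1 y l r) := by
  unfold p3_k
  exact (continuous_const.sub (p3_continuous_Psi x0 x1 y)).max continuous_const

theorem p3_locLip_wfun (x : X) : LocallyLipschitz (wfun x) := by
  have h1 : LocallyLipschitz (fun t : ℝ => t ^ 2 / 2) := by
    apply ContDiff.locallyLipschitz (𝕂 := ℝ)
    fun_prop
  have h2 : LocallyLipschitz (fun z : X => dist z x) :=
    (LipschitzWith.dist_left x).locallyLipschitz
  exact h1.comp h2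

theorem p3_locLip_add {f g : X → ℝ} (hf : LocallyLipschitz f) (hg : LocallyLipschitz g) :
    LocallyLipschitz (fun z => f z + g z) := hf.add hg

theorem p3_locLip_Psi (x0 x1 y : X) : LocallyLipschitz (p3_Psi x0 x1 y) := by
  unfold p3_Psi
  exact p3_locLip_add (p3_locLip_add (p3_locLip_wfun x0) (p3_locLip_wfun x1)) (p3_locLip_wfun y)

theorem p3_wfun_sub_le (x z z' : X) :
    wfun x z' - wfun x z ≤ dist z z' * (dist z x + dist z z' / 2) := by
  unfold wfun
  have h : dist z' x ≤ dist z x + dist z z' := by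
    calc dist z' x ≤ dist z' z + dist z x := dist_triangle _ _ _
      _ = dist z x + dist z z' := by rw [dist_comm z' z, add_comm]
  have h0 : 0 ≤ dist z' x := dist_nonneg
  nlinarith [mul_self_le_mul_self h0 h]

/-- `k` is globally Lipschitz. -/
theorem p3_lip_k {x0 x1 y : X} {l r : ℝ} (hl : 0 < l) (h0 : dist x0 y = l) (h1 : dist x1 y = l)
    (h01 : dist x0 x1 = 2 * l) (hr : 0 < r) : GloballyLipschitz (p3_k x0 x1 y l r) := by
  refine ⟨_, LipschitzWith.of_le_add_mul' (3 * (l + r) + 3 / 2 + r ^ 2 / 2) fun z z' => ?_⟩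
  have hd : 0 ≤ dist z z' := dist_nonneg
  have hk' : 0 ≤ p3_k x0 x1 y l r z' := p3_k_nonneg _ _ _ _ _ _
  by_cases hz : p3_k x0 x1 y l r z = 0
  · rw [hz]
    positivity
  · have hzr : dist z y < r := p3_dist_lt_of_k_ne h01 hr hz
    rcases le_or_gt 1 (dist z z') with h | h
    · have := p3_k_le (y := y) h01 r z
      nlinarith [sq_nonneg r]
    · have e0 : dist z x0 ≤ l + r := by
        calc dist z x0 ≤ dist z y + dist y x0 := dist_triangle _ _ _
          _ ≤ l + r := by rw [dist_comm y x0, h0]; linarith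
      have e1 : dist z x1 ≤ l + r := by
        calc dist z x1 ≤ dist z y + dist y x1 := dist_triangle _ _ _
          _ ≤ l + r := by rw [dist_comm y x1, h1]; linarith
      have e2 : dist z y ≤ l + r := by linarith
      have a0 := p3_wfun_sub_le x0 z z'
      have a1 := p3_wfun_sub_le x1 z z'
      have a2 := p3_wfun_sub_le y z z'
      have hkz : p3_k x0 x1 y l r z = (l ^ 2 + r ^ 2 / 2) - p3_Psi x0 x1 y z := by
        unfold p3_k at hz ⊢
        rcases le_total ((l ^ 2 + r ^ 2 / 2) - p3_Psi x0 x1 y z) 0 with h' | h'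
        · exact absurd (max_eq_right h') hz
        · exact max_eq_left h'
      have hkz' : (l ^ 2 + r ^ 2 / 2) - p3_Psi x0 x1 y z' ≤ p3_k x0 x1 y l r z' := le_max_left _ _
      have b0 : dist z z' * (dist z x0 + dist z z' / 2) ≤ dist z z' * (l + r + 1 / 2) :=
        mul_le_mul_of_nonneg_left (by linarith) hd
      have b1 : dist z z' * (dist z x1 + dist z z' / 2) ≤ dist z z' * (l + r + 1 / 2) :=
        mul_le_mul_of_nonneg_left (by linarith) hd
      have b2 : dist z z' * (dist z y + dist z z' / 2) ≤ dist z z' * (l + r + 1 / 2) :=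
        mul_le_mul_of_nonneg_left (by linarith) hd
      have hP : p3_Psi x0 x1 y z' - p3_Psi x0 x1 y z ≤ 3 * (dist z z' * (l + r + 1 / 2)) := by
        unfold p3_Psi
        linarith
      nlinarith [mul_nonneg hd (sq_nonneg r)]

theorem p3_compact_k [ProperSpace X] {x0 x1 y : X} {l r : ℝ} (h01 : dist x0 x1 = 2 * l)
    (hr : 0 < r) : HasCompactSupport (p3_k x0 x1 y l r) := by
  apply HasCompactSupport.of_support_subset_isCompact (isCompact_closedBall y r)
  intro z hz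
  exact (p3_dist_lt_of_k_ne h01 hr hz).le

/-- product of two bounded Lipschitz functions -/
theorem p3_lip_mul {f g : X → ℝ} (hf : GloballyLipschitz f) (hg : GloballyLipschitz g)
    (hfb : BoundedFunction f) (hgb : BoundedFunction g) :
    GloballyLipschitz (fun z => f z * g z) := by
  obtain ⟨Lf, hLf⟩ := hf
  obtain ⟨Lg, hLg⟩ := hg
  obtain ⟨A, hA⟩ := hfb
  obtain ⟨B, hB⟩ := hgb
  refine ⟨_, LipschitzWith.of_dist_le' (K := A * Lg + B * Lf) fun z z' => ?_⟩
  have h1 := hLf.dist_le_mul z z'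
  have h2 := hLg.dist_le_mul z z'
  rw [Real.dist_eq] at h1 h2 ⊢
  have e : f z * g z - f z' * g z' = f z * (g z - g z') + g z' * (f z - f z') := by ring
  rw [e]
  calc |f z * (g z - g z') + g z' * (f z - f z')|
      ≤ |f z| * |g z - g z'| + |g z'| * |f z - f z'| := by
        rw [← abs_mul, ← abs_mul]; exact abs_add_le _ _
    _ ≤ A * (Lg * dist z z') + B * (Lf * dist z z') := by
        apply add_le_add
        · exact mul_le_mul (hA z) h2 (abs_nonneg _) ((abs_nonneg _).trans (hA z))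
        · exact mul_le_mul (hB z') h1 (abs_nonneg _) ((abs_nonneg _).trans (hB z'))
    _ = (A * Lg + B * Lf) * dist z z' := by ring

theorem p3_LipC_k [ProperSpace X] {x0 x1 y : X} {l r : ℝ} (hl : 0 < l) (h0 : dist x0 y = l)
    (h1 : dist x1 y = l) (h01 : dist x0 x1 = 2 * l) (hr : 0 < r) : LipC (p3_k x0 x1 y l r) :=
  ⟨p3_lip_k hl h0 h1 h01 hr, p3_compact_k h01 hr⟩

theorem p3_LipC_eta [ProperSpace X] {F : X → ℝ} (hFlip : GloballyLipschitz F)
    (hFb : BoundedFunction F) {x0 x1 y : X} {l r : ℝ} (hl : 0 < l) (h0 : dist x0 y = l)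
    (h1 : dist x1 y = l) (h01 : dist x0 x1 = 2 * l) (hr : 0 < r) (o : ℝ) :
    LipC (p3_eta F x0 x1 y l r o) := by
  obtain ⟨L, hL⟩ := hFlip
  obtain ⟨B, hB⟩ := hFb
  constructor
  · unfold p3_eta
    apply p3_lip_mul ⟨L, ?_⟩ (p3_lip_k hl h0 h1 h01 hr) ⟨|o - F y| + B, fun z => ?_⟩
      ⟨r ^ 2 / 2, fun z => ?_⟩
    · exact LipschitzWith.of_dist_le_mul fun z z' => by
        simpa [Real.dist_eq] using hL.dist_le_mul z z'
    · exact (abs_add_le _ _).trans (by linarith [hB z])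
    · rw [abs_of_nonneg (p3_k_nonneg _ _ _ _ _ _)]
      exact p3_k_le h01 r z
  · exact (p3_compact_k (y := y) h01 hr).mul_left

/-- on the support of `k`: `0 ≤ (L r - F y) + F z ≤ 2 L r`. -/
theorem p3_factor_bounds {F : X → ℝ} {L : ℝ≥0} (hF : LipschitzWith L F) {y z : X} {r : ℝ}
    (hz : dist z y < r) : 0 ≤ ((L : ℝ) * r - F y) + F z ∧ ((L : ℝ) * r - F y) + F z ≤ 2 * (L * r) := by
  have h := hF.dist_le_mul z y
  rw [Real.dist_eq] at h
  have h2 : (L : ℝ) * dist z y ≤ L * r := mul_le_mul_of_nonneg_left hz.le L.coe_nonneg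
  have := abs_le.1 (h.trans h2)
  constructor <;> linarith [this.1, this.2]

theorem p3_eta_nonneg {F : X → ℝ} {L : ℝ≥0} (hF : LipschitzWith L F) {x0 x1 y : X} {l r : ℝ}
    (h01 : dist x0 x1 = 2 * l) (hr : 0 < r) (z : X) : 0 ≤ p3_eta F x0 x1 y l r (L * r) z := by
  unfold p3_eta
  by_cases hz : p3_k x0 x1 y l r z = 0
  · rw [hz, mul_zero]
  · exact mul_nonneg (p3_factor_bounds hF (p3_dist_lt_of_k_ne h01 hr hz)).1 (p3_k_nonneg _ _ _ _ _ _)

theorem p3_eta_le {F : X → ℝ} {L : ℝ≥0} (hF : LipschitzWith L F) {x0 x1 y : X} {l r : ℝ}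
    (h01 : dist x0 x1 = 2 * l) (hr : 0 < r) (z : X) :
    p3_eta F x0 x1 y l r (L * r) z ≤ 2 * (L * r) * p3_k x0 x1 y l r z := by
  unfold p3_eta
  by_cases hz : p3_k x0 x1 y l r z = 0
  · rw [hz, mul_zero, mul_zero]
  · exact mul_le_mul_of_nonneg_right (p3_factor_bounds hF (p3_dist_lt_of_k_ne h01 hr hz)).2
      (p3_k_nonneg _ _ _ _ _ _)

end

end Claimed.Agent.R210.P3.Geom
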