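/-
Row 210 (S0432), layer P3 (three point inequality) + TOP.  Architect: helper747.
This file = what P3/TOP NEED from the upstream layers CD, FE, LP, GCB, in exactly the form used,
each proved in a few lines from the interface files of these layers.
Nobody but P3 imports this file.
-/
import Claimed.Agent.R210.Defs
import Claimed.Agent.R210.CO.Ifc
import Claimed.Agent.R210.CD.Ifc
import Claimed.Agent.R210.FE.Ifc
import Claimed.Agent.R210.LP.Ifc
import Claimed.Agent.R210.GCB.Ifc

set_option autoImplicit false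

open Claims.C0366 Claims.C0366.WeakHessian
open Set Filter MeasureTheory
open scoped ENNReal NNReal Topology

namespace Claimed.Agent.R210.P3.Need

open Claimed.Agent.R210.Defs Claimed.Agent.R210.CO.Ifc
open Claimed.Agent.R210.GCB.Defs Claimed.Agent.R210.GCB.IfcA Claimed.Agent.R210.GCB.Ifc

variable {X : Type*} [MetricSpace X] [MeasurableSpace X] [BorelSpace X]
  [CompleteSpace X] [TopologicalSpace.SeparableSpace X]

/-- CD3 -/
theorem p3_need_proper (m : Measure X) (K N : ℝ) (hS : Std m K N) : ProperSpace X :=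
  Claimed.Agent.R210.CD.Ifc.cd_proper hS

variable [ProperSpace X]

/-- FE, (E''): first order inequality. -/
theorem p3_need_fe (m : Measure X) (K N : ℝ) (hS : Std m K N) (F G : X → ℝ)
    (hFlip : GloballyLipschitz F) (hFb : BoundedFunction F)
    (hGb : BoundedFunction G) (hGc : Continuous G) (hHess : WeakHessianUpperBound m F G)
    (x y : X) (κ : ℝ) (hxy : x ≠ y) (hκ : ∀ z ∈ Metric.ball y (3 * dist x y), G z ≤ κ) :
    ∀ᵐ z ∂m, z ∈ Metric.ball y (dist x y / 20) →
      gamma m F (wfun x) z ≤ F z - F x + κ * wfun x z :=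
  Claimed.Agent.R210.FE.Ifc.fe_p3 m K N hS F G hFlip hFb hGb hGc hHess x y κ hxy hκ

/-- LP1: Laplacian comparison (non sharp constant). -/
theorem p3_need_lp (m : Measure X) (K N : ℝ) (hS : Std m K N) (η : X → ℝ) (hη : LipC η)
    (hη0 : ∀ z, 0 ≤ η z) (x : X) :
    -(N * ∫ z, (1 + co_k K N * dist z x) * η z ∂m) ≤ ∫ z, gamma m η (wfun x) z ∂m :=
  Claimed.Agent.R210.LP.Ifc.lp_main hS x hη hη0

/-- GC-C: locally Lipschitz functions are locally Sobolev. -/
theorem p3_need_localSobolev (m : Measure X) (K N : ℝ) (hS : Std m K N) (f : X → ℝ)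
    (hf : LocallyLipschitz f) : LocalSobolev m f :=
  gcb_locSob_of_locLip hS hf

/-- GC-B: additivity in the second slot. -/
theorem p3_need_gamma_add_right (m : Measure X) (K N : ℝ) (hS : Std m K N) (f g h : X → ℝ)
    (hf : LocalSobolev m f) (hg : LocalSobolev m g) (hh : LocalSobolev m h) :
    ∀ᵐ z ∂m, gamma m f (fun y => g y + h y) z = gamma m f g z + gamma m f h z :=
  gcb_gamma_add_right hS hf hg hh

/-- GC-B: constants do not matter (first slot). -/
theorem p3_need_gamma_const_add_left (m : Measure X) (K N : ℝ) (_hS : Std m K N) (c : ℝ)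
    (f g : X → ℝ) (_hf : LocalSobolev m f) (_hg : LocalSobolev m g) :
    ∀ᵐ z ∂m, gamma m (fun y => c + f y) g z = gamma m f g z := by
  have e : (fun y => c + f y) = fun y => f y + c := by
    funext y
    ring
  rw [e, gcb_gamma_add_const_left]
  exact Eventually.of_forall fun _ => rfl

/-- GC-B: Leibniz rule (first slot), continuous factors. -/
theorem p3_need_gamma_mul_left (m : Measure X) (K N : ℝ) (hS : Std m K N) (f g h : X → ℝ)
    (hf : LocalSobolev m f) (hg : LocalSobolev m g) (hh : LocalSobolev m h)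
    (hfc : Continuous f) (hgc : Continuous g) :
    ∀ᵐ z ∂m, gamma m (fun y => f y * g y) h z = f z * gamma m g h z + g z * gamma m f h z :=
  gcb_gamma_mul_left hS hf hg (gcb_locBdd_of_continuous m hfc) (gcb_locBdd_of_continuous m hgc) hh

/-- GC-B: chain rule for the positive part, in the only form used:
`Γ((c-Ψ)_+,Ψ) = -1_{c-Ψ>0} Γ(Ψ,Ψ)`, i.e. it is `≤ 0` and `= 0` where `c - Ψ ≤ 0`. -/
theorem p3_need_gamma_pos_part (m : Measure X) (K N : ℝ) (hS : Std m K N) (Ψ : X → ℝ)
    (hΨ : LocalSobolev m Ψ) (c : ℝ) :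
    ∀ᵐ z ∂m, gamma m (fun y => max (c - Ψ y) 0) Ψ z ≤ 0 ∧
      (c - Ψ z ≤ 0 → gamma m (fun y => max (c - Ψ y) 0) Ψ z = 0) := by
  have hc : LocalSobolev m (fun _ : X => c) := gcb_locSob_const hS c
  have hcΨ : LocalSobolev m (fun y => c - Ψ y) := gcb_locSob_sub hS hc hΨ
  have h1 := gcb_gamma_posPart_left hS hcΨ hΨ
  have h2 := gcb_gamma_sub_left hS hc hΨ hΨ
  have h3 := gcb_gamma_self_nonneg m Ψ
  have h4 : gamma m (fun _ : X => c) Ψ = fun _ => 0 := gcb_gamma_const_left m c Ψ
  filter_upwards [h1, h2, h3] with z h1 h2 h3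
  refine ⟨?_, h1.2⟩
  rcases lt_or_ge 0 (c - Ψ z) with h | h
  · rw [h1.1 h, h2, h4]
    linarith
  · rw [h1.2 h]

/-- GC-B/C: `|Γ(F,w_y)| ≤ |DF| |Dw_y| ≤ L d(.,y)`. -/
theorem p3_need_gamma_abs_le (m : Measure X) (K N : ℝ) (hS : Std m K N) (F : X → ℝ) (L : ℝ≥0)
    (hF : LipschitzWith L F) (y : X) :
    ∀ᵐ z ∂m, |gamma m F (wfun y) z| ≤ L * dist z y := by
  have h1 := gcb_gamma_abs_le hS (gcb_locSob_of_lip hS ⟨L, hF⟩) (gcb_locSob_wfun hS y)
  have h2 := gcb_wg_le_lip hS hF
  have h3 := gcb_wg_wfun_le hS y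
  have h4 := gcb_wg_nonneg m (wfun y)
  filter_upwards [h1, h2, h3, h4] with z h1 h2 h3 h4
  exact h1.trans (mul_le_mul h2 h3 h4 L.coe_nonneg)

/-- GC-B: integrability of `Γ(η,w_x)` for `η ∈ LipC`. -/
theorem p3_need_gamma_integrable (m : Measure X) (K N : ℝ) (hS : Std m K N) (η : X → ℝ)
    (hη : LipC η) (x : X) : Integrable (gamma m η (wfun x)) m :=
  Claimed.Agent.R210.LP.Ifc.lp_gamma_integrable' hS hη x

end Claimed.Agent.R210.P3.Need
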