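/-
Row 210 (S0432), layer P3: the three point inequality (3P) = `FIN.Main.fin_ThreePoint F G`.
Architect: helper747.   EXPORT: `p3_threePoint`.
Paper proof: `git show origin/helper928:docs/R210_partZ.md`, section P3 (with `s = r²/2`).
-/
import Claimed.Agent.R210.P3.Need
import Claimed.Agent.R210.P3.Geom
import Claimed.Agent.R210.FIN.Main

set_option autoImplicit false

open Claims.C0366 Claims.C0366.WeakHessian
open Set Filter MeasureTheory
open scoped ENNReal NNReal Topology

namespace Claimed.Agent.R210.P3.Ifc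

open Claimed.Agent.R210.Defs Claimed.Agent.R210.CO.Ifc Claimed.Agent.R210.P3.Need
  Claimed.Agent.R210.P3.Geom Claimed.Agent.R210.FIN.Main

variable {X : Type*} [MetricSpace X] [MeasurableSpace X] [BorelSpace X]
  [CompleteSpace X] [TopologicalSpace.SeparableSpace X] [ProperSpace X]

/-- `m` is finite on compact sets. -/
theorem p3_finiteOnCompacts {m : Measure X} (h : FiniteOnBoundedSets m) :
    IsFiniteMeasureOnCompacts m :=
  ⟨fun _ hK => h _ hK.isBounded⟩

theorem p3_integrable_of_LipC {m : Measure X} (h : FiniteOnBoundedSets m) {f : X → ℝ}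
    (hf : LipC f) : Integrable f m := by
  have := p3_finiteOnCompacts h
  obtain ⟨⟨L, hL⟩, hc⟩ := hf
  exact hL.continuous.integrable_of_hasCompactSupport hc

/-- `∫ k > 0`. -/
theorem p3_integral_k_pos {m : Measure X} (hfull : FullSupport m) (hfin : FiniteOnBoundedSets m)
    {x0 x1 y : X} {l r : ℝ} (hl : 0 < l) (h0 : dist x0 y = l) (h1 : dist x1 y = l)
    (h01 : dist x0 x1 = 2 * l) (hr : 0 < r) : 0 < ∫ z, p3_k x0 x1 y l r z ∂m := by
  rw [integral_pos_iff_support_of_nonneg (fun z => p3_k_nonneg _ _ _ _ _ z)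
    (p3_integrable_of_LipC hfin (p3_LipC_k hl h0 h1 h01 hr))]
  apply hfull _ (p3_continuous_k x0 x1 y l r).isOpen_support
  refine ⟨y, ?_⟩
  rw [Function.mem_support, p3_k_self h0 h1]
  positivity

section main

variable (m : Measure X) (K N : ℝ) (hS : Std m K N) (F G : X → ℝ) (L : ℝ≥0)
  (hFL : LipschitzWith L F) (hFb : BoundedFunction F) (hGb : BoundedFunction G)
  (hGc : Continuous G) (hHess : WeakHessianUpperBound m F G)
  (x0 x1 y : X) (l κ : ℝ) (hl : 0 < l) (h0 : dist x0 y = l) (h1 : dist x1 y = l)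
  (h01 : dist x0 x1 = 2 * l) (hκ : ∀ z ∈ Metric.ball y (3 * l), G z ≤ κ)

include hS hFL hFb hGb hGc hHess hl h0 h1 hκ in
/-- Step A: `Γ(F,Ψ) ≤ 2F - F x0 - F x1 + κ (w_{x0}+w_{x1}) + L d(.,y)` a.e. near `y`. -/
theorem p3_gamma_F_Psi :
    ∀ᵐ z ∂m, z ∈ Metric.ball y (l / 20) → gamma m F (p3_Psi x0 x1 y) z ≤
      (2 * F z - F x0 - F x1 + κ * (wfun x0 z + wfun x1 z)) + L * dist z y := by
  have hx0 : x0 ≠ y := by
    intro h
    rw [h, dist_self] at h0
    linarith
  have hx1 : x1 ≠ y := by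
    intro h
    rw [h, dist_self] at h1
    linarith
  have hF : LocalSobolev m F := p3_need_localSobolev m K N hS F hFL.locallyLipschitz
  have hw : ∀ x : X, LocalSobolev m (wfun x) := fun x =>
    p3_need_localSobolev m K N hS _ (p3_locLip_wfun x)
  have hw01 : LocalSobolev m (fun z => wfun x0 z + wfun x1 z) :=
    p3_need_localSobolev m K N hS _ (p3_locLip_add (p3_locLip_wfun x0) (p3_locLip_wfun x1))
  have e0 := p3_need_fe m K N hS F G ⟨L, hFL⟩ hFb hGb hGc hHess x0 y κ hx0 (by rw [h0]; exact hκ)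
  have e1 := p3_need_fe m K N hS F G ⟨L, hFL⟩ hFb hGb hGc hHess x1 y κ hx1 (by rw [h1]; exact hκ)
  have e2 := p3_need_gamma_abs_le m K N hS F L hFL y
  have a1 := p3_need_gamma_add_right m K N hS F (fun z => wfun x0 z + wfun x1 z) (wfun y) hF hw01
    (hw y)
  have a2 := p3_need_gamma_add_right m K N hS F (wfun x0) (wfun x1) hF (hw x0) (hw x1)
  filter_upwards [e0, e1, e2, a1, a2] with z e0 e1 e2 a1 a2 hz
  rw [h0] at e0
  rw [h1] at e1
  have e : gamma m F (p3_Psi x0 x1 y) z =
      gamma m F (fun y' => (fun z => wfun x0 z + wfun x1 z) y' + wfun y y') z := rfl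
  rw [e, a1, a2]
  have b0 := e0 hz
  have b1 := e1 hz
  have b2 := (abs_le.1 e2).2
  linarith

include hS hFL hl h0 h1 h01 in
/-- Step B: `Γ(η,Ψ) ≤ k Γ(F,Ψ)` a.e. -/
theorem p3_gamma_eta_Psi (r : ℝ) (hr : 0 < r) :
    ∀ᵐ z ∂m, gamma m (p3_eta F x0 x1 y l r (L * r)) (p3_Psi x0 x1 y) z ≤
      p3_k x0 x1 y l r z * gamma m F (p3_Psi x0 x1 y) z := by
  have hF : LocalSobolev m F := p3_need_localSobolev m K N hS F hFL.locallyLipschitz
  have hΨ : LocalSobolev m (p3_Psi x0 x1 y) :=
    p3_need_localSobolev m K N hS _ (p3_locLip_Psi x0 x1 y)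
  obtain ⟨Lk, hLk⟩ := p3_lip_k hl h0 h1 h01 hr
  have hk : LocalSobolev m (p3_k x0 x1 y l r) :=
    p3_need_localSobolev m K N hS _ hLk.locallyLipschitz
  have hfl : LocallyLipschitz (fun z => ((L : ℝ) * r - F y) + F z) :=
    p3_locLip_add (LocallyLipschitz.const _) hFL.locallyLipschitz
  have hf : LocalSobolev m (fun z => ((L : ℝ) * r - F y) + F z) :=
    p3_need_localSobolev m K N hS _ hfl
  have leib := p3_need_gamma_mul_left m K N hS (fun z => ((L : ℝ) * r - F y) + F z)
    (p3_k x0 x1 y l r) (p3_Psi x0 x1 y) hf hk hΨ hfl.continuous hLk.continuous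
  have cst := p3_need_gamma_const_add_left m K N hS ((L : ℝ) * r - F y) F (p3_Psi x0 x1 y) hF hΨ
  have pos := p3_need_gamma_pos_part m K N hS (p3_Psi x0 x1 y) hΨ (l ^ 2 + r ^ 2 / 2)
  filter_upwards [leib, cst, pos] with z leib cst pos
  have e : gamma m (p3_eta F x0 x1 y l r (L * r)) (p3_Psi x0 x1 y) z =
      gamma m (fun y' => (((L : ℝ) * r - F y) + F y') * p3_k x0 x1 y l r y') (p3_Psi x0 x1 y) z := rfl
  have e' : gamma m (fun y' => max (l ^ 2 + r ^ 2 / 2 - p3_Psi x0 x1 y y') 0) (p3_Psi x0 x1 y) z =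
      gamma m (p3_k x0 x1 y l r) (p3_Psi x0 x1 y) z := rfl
  rw [e'] at pos
  rw [e, leib, cst]
  have key : (((L : ℝ) * r - F y) + F z) * gamma m (p3_k x0 x1 y l r) (p3_Psi x0 x1 y) z ≤ 0 := by
    by_cases hz : p3_k x0 x1 y l r z = 0
    · have : l ^ 2 + r ^ 2 / 2 - p3_Psi x0 x1 y z ≤ 0 := by
        rw [← hz]
        exact le_max_left _ _
      rw [pos.2 this, mul_zero]
    · exact mul_nonpos_of_nonneg_of_nonpos
        (p3_factor_bounds hFL (p3_dist_lt_of_k_ne h01 hr hz)).1 pos.1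
  linarith

include hS in
/-- Step C: additivity. -/
theorem p3_gamma_split (η : X → ℝ) (hη : LipC η) :
    ∀ᵐ z ∂m, gamma m η (p3_Psi x0 x1 y) z =
      gamma m η (wfun x0) z + gamma m η (wfun x1) z + gamma m η (wfun y) z := by
  obtain ⟨⟨Lη, hLη⟩, -⟩ := hη
  have hF : LocalSobolev m η := p3_need_localSobolev m K N hS η hLη.locallyLipschitz
  have hw : ∀ x : X, LocalSobolev m (wfun x) := fun x =>
    p3_need_localSobolev m K N hS _ (p3_locLip_wfun x)
  have hw01 : LocalSobolev m (fun z => wfun x0 z + wfun x1 z) :=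
    p3_need_localSobolev m K N hS _ (p3_locLip_add (p3_locLip_wfun x0) (p3_locLip_wfun x1))
  have a1 := p3_need_gamma_add_right m K N hS η (fun z => wfun x0 z + wfun x1 z) (wfun y) hF hw01
    (hw y)
  have a2 := p3_need_gamma_add_right m K N hS η (wfun x0) (wfun x1) hF (hw x0) (hw x1)
  filter_upwards [a1, a2] with z a1 a2
  have e : gamma m η (p3_Psi x0 x1 y) z =
      gamma m η (fun y' => (fun z => wfun x0 z + wfun x1 z) y' + wfun y y') z := rfl
  rw [e, a1, a2]

include hS hFL hFb hl h0 h1 h01 in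
/-- Step D: Laplacian comparison for one base point `x` with `d(x,y) ≤ l`. -/
theorem p3_lp_one (r : ℝ) (hr : 0 < r) (x : X) (hx : dist x y ≤ l) :
    -(N * (1 + co_k K N * (l + r)) * (2 * (L * r)) * ∫ z, p3_k x0 x1 y l r z ∂m) ≤
      ∫ z, gamma m (p3_eta F x0 x1 y l r (L * r)) (wfun x) z ∂m := by
  have hN : 0 < N := by linarith [hS.one_lt_N]
  have hkk : 0 < co_k K N := co_k_pos hS.K_neg hS.one_lt_N
  have hηC : LipC (p3_eta F x0 x1 y l r (L * r)) := p3_LipC_eta ⟨L, hFL⟩ hFb hl h0 h1 h01 hr _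
  have lp := p3_need_lp m K N hS _ hηC (p3_eta_nonneg hFL h01 hr) x
  have hkint : Integrable (p3_k x0 x1 y l r) m :=
    p3_integrable_of_LipC hS.finite (p3_LipC_k hl h0 h1 h01 hr)
  have hle : ∫ z, (1 + co_k K N * dist z x) * p3_eta F x0 x1 y l r (L * r) z ∂m ≤
      ∫ z, ((1 + co_k K N * (l + r)) * (2 * (L * r))) * p3_k x0 x1 y l r z ∂m := by
    apply integral_mono_of_nonneg
    · exact Eventually.of_forall fun z =>
        mul_nonneg (by positivity) (p3_eta_nonneg hFL h01 hr z)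
    · exact hkint.const_mul _
    · refine Eventually.of_forall fun z => ?_
      show (1 + co_k K N * dist z x) * p3_eta F x0 x1 y l r (L * r) z ≤
        ((1 + co_k K N * (l + r)) * (2 * (L * r))) * p3_k x0 x1 y l r z
      by_cases hz : p3_k x0 x1 y l r z = 0
      · have : p3_eta F x0 x1 y l r (L * r) z = 0 := by
          unfold p3_eta
          rw [hz, mul_zero]
        rw [this, hz, mul_zero, mul_zero]
      · have hzr := p3_dist_lt_of_k_ne h01 hr hz
        have hd : dist z x ≤ l + r := by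
          calc dist z x ≤ dist z y + dist y x := dist_triangle _ _ _
            _ ≤ l + r := by rw [dist_comm y x]; linarith
        have h1' : 1 + co_k K N * dist z x ≤ 1 + co_k K N * (l + r) := by
          have := mul_le_mul_of_nonneg_left hd hkk.le
          linarith
        rw [mul_assoc]
        exact mul_le_mul h1' (p3_eta_le hFL h01 hr z) (p3_eta_nonneg hFL h01 hr z) (by positivity)
  rw [integral_const_mul] at hle
  have := mul_le_mul_of_nonneg_left hle hN.le
  have e : N * (1 + co_k K N * (l + r)) * (2 * (L * r)) * ∫ z, p3_k x0 x1 y l r z ∂m =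
      N * ((1 + co_k K N * (l + r)) * (2 * (L * r)) * ∫ z, p3_k x0 x1 y l r z ∂m) := by ring
  rw [e]
  linarith

include hS hFL hFb hGb hGc hHess hl h0 h1 h01 hκ in
/-- Step E: the key estimate for a fixed small radius `r`. -/
theorem p3_key (c0 r : ℝ) (hr : 0 < r) (hr20 : r ≤ l / 20)
    (hΦ : ∀ z ∈ Metric.ball y r,
      (2 * F z - F x0 - F x1 + κ * (wfun x0 z + wfun x1 z)) + L * dist z y ≤ -(c0 / 2)) :
    c0 / 2 ≤ 3 * (N * (1 + co_k K N * (l + r)) * (2 * (L * r))) := by
  have hηC : LipC (p3_eta F x0 x1 y l r (L * r)) := p3_LipC_eta ⟨L, hFL⟩ hFb hl h0 h1 h01 hr _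
  have hkint : Integrable (p3_k x0 x1 y l r) m :=
    p3_integrable_of_LipC hS.finite (p3_LipC_k hl h0 h1 h01 hr)
  have hkpos := p3_integral_k_pos hS.full hS.finite hl h0 h1 h01 hr
  have d0 := p3_lp_one m K N hS F L hFL hFb x0 x1 y l hl h0 h1 h01 r hr x0 h0.le
  have d1 := p3_lp_one m K N hS F L hFL hFb x0 x1 y l hl h0 h1 h01 r hr x1 h1.le
  have d2 := p3_lp_one m K N hS F L hFL hFb x0 x1 y l hl h0 h1 h01 r hr y
    (by rw [dist_self]; exact hl.le)
  have i0 := p3_need_gamma_integrable m K N hS _ hηC x0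
  have i1 := p3_need_gamma_integrable m K N hS _ hηC x1
  have i2 := p3_need_gamma_integrable m K N hS _ hηC y
  have sA := p3_gamma_F_Psi m K N hS F G L hFL hFb hGb hGc hHess x0 x1 y l κ hl h0 h1 hκ
  have sB := p3_gamma_eta_Psi m K N hS F L hFL x0 x1 y l hl h0 h1 h01 r hr
  have sC := p3_gamma_split m K N hS x0 x1 y _ hηC
  have hle : ∫ z, (gamma m (p3_eta F x0 x1 y l r (L * r)) (wfun x0) z +
      gamma m (p3_eta F x0 x1 y l r (L * r)) (wfun x1) z +
      gamma m (p3_eta F x0 x1 y l r (L * r)) (wfun y) z) ∂m ≤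
      ∫ z, (-(c0 / 2)) * p3_k x0 x1 y l r z ∂m := by
    apply integral_mono_ae ((i0.add i1).add i2) (hkint.const_mul _)
    filter_upwards [sA, sB, sC] with z sA sB sC
    show gamma m (p3_eta F x0 x1 y l r (L * r)) (wfun x0) z +
      gamma m (p3_eta F x0 x1 y l r (L * r)) (wfun x1) z +
      gamma m (p3_eta F x0 x1 y l r (L * r)) (wfun y) z ≤ (-(c0 / 2)) * p3_k x0 x1 y l r z
    rw [← sC]
    refine sB.trans ?_
    by_cases hz : p3_k x0 x1 y l r z = 0
    · rw [hz, zero_mul, mul_zero]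
    · have hzr := p3_dist_lt_of_k_ne h01 hr hz
      have h1' := sA (Metric.mem_ball.2 (lt_of_lt_of_le hzr hr20))
      have h2' := hΦ z (Metric.mem_ball.2 hzr)
      rw [mul_comm]
      exact mul_le_mul_of_nonneg_right (h1'.trans h2') (p3_k_nonneg _ _ _ _ _ _)
  have hsum : ∫ z, (gamma m (p3_eta F x0 x1 y l r (L * r)) (wfun x0) z +
      gamma m (p3_eta F x0 x1 y l r (L * r)) (wfun x1) z +
      gamma m (p3_eta F x0 x1 y l r (L * r)) (wfun y) z) ∂m =
      ∫ z, gamma m (p3_eta F x0 x1 y l r (L * r)) (wfun x0) z ∂m +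
      ∫ z, gamma m (p3_eta F x0 x1 y l r (L * r)) (wfun x1) z ∂m +
      ∫ z, gamma m (p3_eta F x0 x1 y l r (L * r)) (wfun y) z ∂m := by
    rw [← integral_add i0 i1]
    exact integral_add (i0.add i1) i2
  rw [integral_const_mul, hsum] at hle
  by_contra hcon
  rw [not_le] at hcon
  nlinarith

include hS hFL hFb hGb hGc hHess hl h0 h1 h01 hκ in
/-- (3P) for fixed data. -/
theorem p3_three : F x0 + F x1 - 2 * F y ≤ κ * l ^ 2 := by
  by_contra hcon
  rw [not_le] at hcon
  set c0 : ℝ := F x0 + F x1 - 2 * F y - κ * l ^ 2 with hc0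
  have hc0pos : 0 < c0 := by linarith
  have hN : 0 < N := by linarith [hS.one_lt_N]
  have hkk : 0 < co_k K N := co_k_pos hS.K_neg hS.one_lt_N
  -- continuity of the right hand side of Step A
  have hcont : Continuous (fun z =>
      (2 * F z - F x0 - F x1 + κ * (wfun x0 z + wfun x1 z)) + L * dist z y) := by
    have := hFL.continuous
    have := p3_continuous_wfun x0
    have := p3_continuous_wfun x1
    fun_prop
  have hval : (2 * F y - F x0 - F x1 + κ * (wfun x0 y + wfun x1 y)) + L * dist y y = -c0 := by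
    unfold wfun
    rw [dist_comm y x0, dist_comm y x1, h0, h1, dist_self]
    rw [hc0]
    ring
  have hev : ∀ᶠ z in 𝓝 y,
      (2 * F z - F x0 - F x1 + κ * (wfun x0 z + wfun x1 z)) + L * dist z y < -(c0 / 2) := by
    apply hcont.continuousAt.eventually_lt continuousAt_const
    rw [hval]
    linarith
  obtain ⟨s1, hs1, hball⟩ := Metric.eventually_nhds_iff_ball.1 hev
  set A : ℝ := 6 * (N * (1 + co_k K N * (l + 1)) * L) with hA
  have hA0 : 0 ≤ A := by positivity
  obtain ⟨r, hr, hr1, hr20, hrs, hrA⟩ :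
      ∃ r : ℝ, 0 < r ∧ r ≤ 1 ∧ r ≤ l / 20 ∧ r ≤ s1 ∧ A * r < c0 / 2 := by
    refine ⟨min (min 1 (l / 20)) (min s1 (c0 / (4 * (A + 1)))), ?_, ?_, ?_, ?_, ?_⟩
    · exact lt_min (lt_min one_pos (by positivity)) (lt_min hs1 (by positivity))
    · exact (min_le_left _ _).trans (min_le_left _ _)
    · exact (min_le_left _ _).trans (min_le_right _ _)
    · exact (min_le_right _ _).trans (min_le_left _ _)
    · have h : min (min 1 (l / 20)) (min s1 (c0 / (4 * (A + 1)))) ≤ c0 / (4 * (A + 1)) :=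
        (min_le_right _ _).trans (min_le_right _ _)
      have h2 : A * (c0 / (4 * (A + 1))) ≤ c0 / 4 := by
        rw [mul_div_assoc', div_le_div_iff₀ (by positivity) (by norm_num)]
        nlinarith
      have := mul_le_mul_of_nonneg_left h hA0
      linarith
  have key := p3_key m K N hS F G L hFL hFb hGb hGc hHess x0 x1 y l κ hl h0 h1 h01 hκ c0 r hr hr20
    (fun z hz => (hball z (Metric.ball_subset_ball hrs hz)).le)
  have hmono : 3 * (N * (1 + co_k K N * (l + r)) * (2 * (L * r))) ≤ A * r := by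
    have h1' : 1 + co_k K N * (l + r) ≤ 1 + co_k K N * (l + 1) := by
      have := mul_le_mul_of_nonneg_left (by linarith : l + r ≤ l + 1) hkk.le
      linarith
    have h2' : N * (1 + co_k K N * (l + r)) ≤ N * (1 + co_k K N * (l + 1)) :=
      mul_le_mul_of_nonneg_left h1' hN.le
    have h3' : N * (1 + co_k K N * (l + r)) * (2 * (L * r)) ≤
        N * (1 + co_k K N * (l + 1)) * (2 * (L * r)) :=
      mul_le_mul_of_nonneg_right h2' (by positivity)
    rw [hA]
    nlinarith
  linarith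

end main

/-- **Layer P3**: the three point inequality. -/
theorem p3_threePoint (m : Measure X) (K N : ℝ) (hS : Std m K N) (F G : X → ℝ)
    (hFlip : GloballyLipschitz F) (hFb : BoundedFunction F) (hGb : BoundedFunction G)
    (hGc : Continuous G) (hHess : WeakHessianUpperBound m F G) : fin_ThreePoint F G := by
  obtain ⟨L, hFL⟩ := hFlip
  intro x0 x1 y l κ hl h0 h1 h01 hκ
  exact p3_three m K N hS F G L hFL hFb hGb hGc hHess x0 x1 y l κ hl h0 h1 h01 hκ

end Claimed.Agent.R210.P3.Ifc
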