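/-
Row 210 (S0432), TOP: the frozen statement from the layers CO (reduction to `K < 0`), CD3 (properness),
P3 (three point inequality) and FIN.   `Claimed/Agent/S0432.lean` is the one line `exact p3_top ...`;
it is landed only when the closure of this file is free of `sorry`.
-/
import Claimed.Agent.R210.P3.Ifc

set_option autoImplicit false

open Claims.C0366 Claims.C0366.WeakHessian
open Set Filter MeasureTheory
open scoped ENNReal NNReal Topology

namespace Claimed.Agent.R210.P3.Top

open Claimed.Agent.R210.Defs Claimed.Agent.R210.CO.Ifc Claimed.Agent.R210.P3.Need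
  Claimed.Agent.R210.P3.Ifc Claimed.Agent.R210.FIN.Main

variable {X : Type*} [MetricSpace X] [MeasurableSpace X] [BorelSpace X]

theorem p3_top [CompleteSpace X] [TopologicalSpace.SeparableSpace X]
    (m : Measure X) (K N : ℝ) (hN : 1 < N)
    (hfull : FullSupport m) (hfinite : FiniteOnBoundedSets m) (hrcd : RCD m K N)
    (F G : X → ℝ) (hFbound : BoundedFunction F) (hFlip : GloballyLipschitz F)
    (hGbound : BoundedFunction G) (hGcont : Continuous G)
    (hHess : WeakHessianUpperBound m F G)
    (σ : Curve X) (hσ : IsGeodesic σ) : CurveSecondDerivativeBound F G σ := by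
  have hS : Std m (min K (-1)) N := co_std hN hfull hfinite hrcd
  have hP : ProperSpace X := p3_need_proper m _ N hS
  have h3 : fin_ThreePoint F G := p3_threePoint m _ N hS F G hFlip hFbound hGbound hGcont hHess
  obtain ⟨L, hL⟩ := hFlip
  exact fin_main F G hFbound hL.continuous hGcont h3 σ hσ

end Claimed.Agent.R210.P3.Top
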